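import Mathlib
import Vale.Agent.P196.Window

/-!
P196: infinite finitely presented simple groups do not embed in full groups of `ℤ`-actions.
-/

namespace Vale.Agent.Results.P196.FullGroups

open Equiv

theorem result : ∀ (G : Type) [Group G], Group.IsFinitelyPresented G → IsSimpleGroup G →
    Infinite G → ∀ (X : Type) (φ : Equiv.Perm X) (ρ : G →* Equiv.Perm X),
    (∀ g : G, ∃ C : ℕ, ∀ x : X, ∃ k : ℤ, |k| ≤ (C : ℤ) ∧ ρ g x = (φ ^ k) x) → ρ = 1 := by
  intro G _ hfp hs hinf X φ ρ hb
  classical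
  have hq : ∀ (F : Type) [Group F] [Finite F] (f : G →* F), f = 1 := by
    intro F _ _ f
    rcases hs.eq_bot_or_eq_top_of_normal f.ker inferInstance with h | h
    · exact absurd (Finite.of_injective f ((MonoidHom.ker_eq_bot_iff f).1 h))
        (not_finite_iff_infinite.2 hinf)
    · exact MonoidHom.ker_eq_top_iff.1 h
  refine MonoidHom.ext fun g => Equiv.ext fun x₀ => ?_
  have hpow : ∀ (i j : ℤ) x, (φ ^ i) ((φ ^ j) x) = (φ ^ (i + j)) x := fun i j x => by
    rw [zpow_add]; rfl
  by_cases hinj : Function.Injective fun k : ℤ => (φ ^ k) x₀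
  · have hex : ∀ g (k : ℤ), ∃ j : ℤ, ρ g ((φ ^ k) x₀) = (φ ^ j) x₀ := fun g k => by
      obtain ⟨C, hC⟩ := hb g
      obtain ⟨i, -, hi⟩ := hC ((φ ^ k) x₀)
      exact ⟨i + k, by rw [hi, hpow]⟩
    choose e he using hex
    have hmul : ∀ g h k, e (g * h) k = e g (e h k) := fun g h k => hinj <| by
      show (φ ^ e (g * h) k) x₀ = (φ ^ e g (e h k)) x₀
      rw [← he, ← he, map_mul, Perm.mul_apply, he h]
    have hone : ∀ k, e 1 k = k := fun k => hinj <| by
      show (φ ^ e 1 k) x₀ = (φ ^ k) x₀
      rw [← he, map_one]; rfl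
    let η : G →* Perm ℤ :=
      { toFun := fun g => ⟨e g, e g⁻¹,
          fun k => by rw [← hmul, inv_mul_cancel, hone],
          fun k => by rw [← hmul, mul_inv_cancel, hone]⟩
        map_one' := Equiv.ext hone
        map_mul' := fun g h => Equiv.ext (hmul g h) }
    have hbd : ∀ g, ∃ C : ℕ, ∀ k, |η g k - k| ≤ C := fun g => by
      obtain ⟨C, hC⟩ := hb g
      refine ⟨C, fun k => ?_⟩
      obtain ⟨i, hi, he'⟩ := hC ((φ ^ k) x₀)
      rw [he, hpow] at he'
      have : e g k = i + k := hinj he'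
      show |e g k - k| ≤ C
      rw [this, add_sub_cancel_right]
      exact hi
    have h0 : e g 0 = 0 := congrArg (fun σ : Perm ℤ => σ 0)
      (DFunLike.congr_fun (Vale.Agent.P196.bounded_trivial hfp hq η hbd) g)
    have := he g 0
    rw [h0] at this
    simpa using this
  · obtain ⟨p, hp, hpx⟩ : ∃ p : ℕ, 0 < p ∧ (φ ^ (p : ℤ)) x₀ = x₀ := by
      simp only [Function.Injective, not_forall] at hinj
      obtain ⟨a, b, hab, hne⟩ := hinj
      have h1 : ∀ c d : ℤ, (φ ^ c) x₀ = (φ ^ d) x₀ → (φ ^ (d - c)) x₀ = x₀ := by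
        intro c d h
        have h' := congrArg (φ ^ (-c)) h
        rw [hpow, hpow, neg_add_cancel, zpow_zero, neg_add_eq_sub] at h'
        exact h'.symm
      rcases lt_or_gt_of_ne hne with h | h
      · exact ⟨(b - a).toNat, by omega, by rw [Int.toNat_of_nonneg (by omega)]; exact h1 a b hab⟩
      · exact ⟨(a - b).toNat, by omega,
          by rw [Int.toNat_of_nonneg (by omega)]; exact h1 b a hab.symm⟩
    let O : Set X := Set.range fun k : ℤ => (φ ^ k) x₀
    have : Finite O := by
      have hsub : O ⊆ Set.range fun j : Fin p => (φ ^ (j.1 : ℤ)) x₀ := by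
        rintro _ ⟨k, rfl⟩
        have hfix : ∀ q : ℤ, (φ ^ (q * (p : ℤ))) x₀ = x₀ := fun q => by
          induction q using Int.induction_on with
          | zero => simp
          | succ i ih => rw [show ((i : ℤ) + 1) * p = i * p + p by ring, ← hpow, hpx, ih]
          | pred i ih =>
            have := congrArg (φ ^ ((-(i : ℤ) - 1) * p)) hpx
            rw [hpow, show (-(i : ℤ) - 1) * p + p = -(i : ℤ) * p by ring, ih] at this
            exact this.symm
        have hp0 : (0 : ℤ) < p := by omega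
        refine ⟨⟨(k % (p : ℤ)).toNat, by
          have := Int.emod_lt_of_pos k hp0; omega⟩, ?_⟩
        simp only
        rw [Int.toNat_of_nonneg (Int.emod_nonneg k hp0.ne')]
        conv_rhs => rw [show k = k % (p : ℤ) + k / p * (p : ℤ) by rw [Int.emod_def]; ring,
          ← hpow, hfix]
      exact ((Set.finite_range _).subset hsub).to_subtype
    have hmaps : ∀ g x, x ∈ O → ρ g x ∈ O := by
      rintro g _ ⟨k, rfl⟩
      obtain ⟨C, hC⟩ := hb g
      obtain ⟨i, -, hi⟩ := hC ((φ ^ k) x₀)
      exact ⟨i + k, by rw [hi, hpow]⟩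
    have hinv : ∀ g x, ρ g x ∈ O ↔ x ∈ O := fun g x =>
      ⟨fun h => by simpa using hmaps g⁻¹ _ h, hmaps g x⟩
    let P : G →* Perm O :=
      { toFun := fun g => (ρ g).subtypePerm (hinv g)
        map_one' := by ext x; simp
        map_mul' := fun g h => by
          ext x
          show ρ (g * h) x.1 = ρ g (ρ h x.1)
          rw [map_mul]; rfl }
    have := congrArg (fun e : Perm O => (e ⟨x₀, 0, by simp⟩).1) (DFunLike.congr_fun (hq _ P) g)
    simpa [P] using this

end Vale.Agent.Results.P196.FullGroups
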